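import Vale.Agent.P123.DoubleLayer

/-!
An explicit smooth convex curve around the numerical range, given by the gauge built from the
positive parts of finitely many real linear functionals, and the convexity of the numerical range.
-/

noncomputable section

open Finset intervalIntegral MeasureTheory
open scoped InnerProductSpace Real ComplexConjugate

set_option linter.unusedSectionVars false

namespace Vale.Agent.P123

/-- The positive part to a power. -/
def ppow (n : ℕ) (x : ℝ) : ℝ := max x 0 ^ n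

lemma ppow_nonneg (n : ℕ) (x : ℝ) : 0 ≤ ppow n x := pow_nonneg (le_max_right _ _) _

lemma continuous_ppow (n : ℕ) : Continuous (ppow n) := by unfold ppow; fun_prop

lemma hasDerivAt_ppow (m : ℕ) (x : ℝ) :
    HasDerivAt (ppow (m + 2)) ((m + 2 : ℕ) * ppow (m + 1) x) x := by
  rcases lt_trichotomy x 0 with h | rfl | h
  · have e : ppow (m + 2) =ᶠ[nhds x] fun _ => 0 := by
      filter_upwards [gt_mem_nhds h] with y hy
      simp [ppow, max_eq_right hy.le]
    refine ((hasDerivAt_const x (0:ℝ)).congr_of_eventuallyEq e).congr_deriv ?_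
    simp [ppow, max_eq_right h.le]
  · have e : ((m + 2 : ℕ) : ℝ) * ppow (m + 1) 0 = 0 := by simp [ppow]
    rw [e, hasDerivAt_iff_isLittleO]
    simp only [sub_zero, smul_zero]
    have h0 : ppow (m + 2) 0 = 0 := by simp [ppow]
    simp only [h0, sub_zero]
    refine Asymptotics.IsBigO.trans_isLittleO ?_
      (Asymptotics.isLittleO_pow_id (𝕜 := ℝ) (n := m + 2) (by omega))
    refine Asymptotics.IsBigO.of_bound 1 (Filter.Eventually.of_forall fun y => ?_)
    rw [one_mul, ppow, norm_pow, norm_pow]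
    refine pow_le_pow_left₀ (norm_nonneg _) ?_ _
    rw [Real.norm_eq_abs, Real.norm_eq_abs, abs_of_nonneg (le_max_right _ _)]
    exact max_le (le_abs_self _) (abs_nonneg _)
  · have e : ppow (m + 2) =ᶠ[nhds x] fun y => y ^ (m + 2) := by
      filter_upwards [lt_mem_nhds h] with y hy
      simp [ppow, max_eq_left hy.le]
    refine ((hasDerivAt_pow (m + 2) x).congr_of_eventuallyEq e).congr_deriv ?_
    simp [ppow, max_eq_left h.le]

lemma ppow_succ_mul (n : ℕ) (x : ℝ) : ppow (n + 1) x * x = ppow (n + 2) x := by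
  rcases le_total x 0 with h | h
  · simp [ppow, max_eq_right h]
  · simp [ppow, max_eq_left h, pow_succ]

/-- Young's inequality for natural exponents. -/
lemma young_pow {x y : ℝ} (hx : 0 ≤ x) (hy : 0 ≤ y) :
    ∀ n : ℕ, ((n:ℝ) + 1) * (x ^ n * y) ≤ n * x ^ (n + 1) + y ^ (n + 1)
  | 0 => by simp
  | n + 1 => by
    have ih := young_pow hx hy n
    have h1 := mul_le_mul_of_nonneg_right ih hy
    have h2 : 0 ≤ ((n:ℝ) + 1) * x ^ n * (x - y) ^ 2 := by positivity
    push_cast
    rw [pow_succ x n, pow_succ x (n + 1), pow_succ x n, pow_succ y (n + 1)]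
    rw [pow_succ x n] at h1
    nlinarith

variable {E : Type*} [NormedAddCommGroup E] [InnerProductSpace ℂ E]

/-- The numerical range. -/
def numRange (B : E →L[ℂ] E) : Set ℂ := (fun u => ⟪u, B u⟫_ℂ) '' Metric.sphere 0 1

lemma mem_numRange {B : E →L[ℂ] E} {u : E} (hu : ‖u‖ = 1) : ⟪u, B u⟫_ℂ ∈ numRange B :=
  ⟨u, mem_sphere_zero_iff_norm.mpr hu, rfl⟩

lemma isCompact_numRange [FiniteDimensional ℂ E] (B : E →L[ℂ] E) : IsCompact (numRange B) := by
  have : ProperSpace E := FiniteDimensional.proper ℂ E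
  exact (isCompact_sphere (0:E) 1).image (by fun_prop)

/-- The Toeplitz–Hausdorff theorem. -/
theorem convex_numRange (B : E →L[ℂ] E) : Convex ℝ (numRange B) := by
  rw [convex_iff_forall_pos]
  rintro _ ⟨u, hu, rfl⟩ _ ⟨v₀, hv₀, rfl⟩ r s hr hs hrs
  rw [mem_sphere_zero_iff_norm] at hu hv₀
  simp only
  set w1 := ⟪u, B u⟫_ℂ with hw1
  set w2 := ⟪v₀, B v₀⟫_ℂ with hw2
  by_cases heq : w2 = w1
  · rw [heq, ← add_smul, hrs, one_smul]
    exact mem_numRange hu
  have hd : w2 - w1 ≠ 0 := sub_ne_zero.mpr heq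
  -- the normalised operator
  let T : E →L[ℂ] E := (w2 - w1)⁻¹ • (B - w1 • (1 : E →L[ℂ] E))
  have hT : ∀ x y : E, ⟪x, T y⟫_ℂ = (w2 - w1)⁻¹ * (⟪x, B y⟫_ℂ - w1 * ⟪x, y⟫_ℂ) := by
    intro x y; simp [T, inner_smul_right, inner_sub_right]
  -- choice of the phase
  set q : ℂ := ⟪u, T v₀⟫_ℂ - conj ⟪v₀, T u⟫_ℂ with hq
  obtain ⟨ω, hω, hωq⟩ : ∃ ω : ℂ, ‖ω‖ = 1 ∧ (ω * q).im = 0 := by
    by_cases h : q = 0
    · exact ⟨1, by simp, by simp [h]⟩
    · refine ⟨conj q / (‖q‖ : ℂ), ?_, ?_⟩
      · simp [h]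
      · rw [div_mul_eq_mul_div, mul_comm, Complex.mul_conj, ← Complex.ofReal_div,
          Complex.ofReal_im]
  set v : E := ω • v₀ with hv
  have hvn : ‖v‖ = 1 := by rw [hv, norm_smul, hω, hv₀, one_mul]
  have hcc : conj ω * ω = 1 := by
    rw [mul_comm, Complex.mul_conj, Complex.normSq_eq_norm_sq, hω]; simp
  have huu : ⟪u, u⟫_ℂ = 1 := by rw [inner_self_eq_norm_sq_to_K, hu]; simp
  have hvv : ⟪v, v⟫_ℂ = 1 := by rw [inner_self_eq_norm_sq_to_K, hvn]; simp
  have T00 : ⟪u, T u⟫_ℂ = 0 := by rw [hT, huu, mul_one, sub_self, mul_zero]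
  have T11 : ⟪v, T v⟫_ℂ = 1 := by
    rw [hT, hvv, hv, map_smul, inner_smul_left, inner_smul_right, ← mul_assoc, hcc, one_mul,
      mul_one, ← hw2, inv_mul_cancel₀ hd]
  set β : ℂ := ⟪u, T v⟫_ℂ + ⟪v, T u⟫_ℂ with hβ
  have hβim : β.im = 0 := by
    rw [hβ, hv, map_smul, inner_smul_right, inner_smul_left]
    simp only [hq, mul_sub, Complex.sub_im, Complex.mul_im, Complex.conj_im, Complex.conj_re]
      at hωq
    simp only [Complex.add_im, Complex.mul_im, Complex.conj_im, Complex.conj_re]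
    linarith
  let x : ℝ → E := fun t => ((1 - t : ℝ) : ℂ) • u + (t : ℂ) • v
  have hx0 : ∀ t, x t ≠ 0 := by
    intro t h
    by_cases ht : t = 0
    · subst ht; simp [x] at h; simp [h] at hu
    · have hv' : v = (-(((1 - t : ℝ) : ℂ)) / (t : ℂ)) • u := by
        have h' : (t : ℂ) • v = -((((1 - t : ℝ) : ℂ)) • u) := eq_neg_of_add_eq_zero_right h
        have ht' : (t : ℂ) ≠ 0 := by exact_mod_cast ht
        rw [← inv_smul_smul₀ ht' v, h', smul_neg, smul_smul, ← neg_smul, div_eq_mul_inv]
        congr 1; ring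
      have e := T11
      rw [hv', map_smul, inner_smul_left, inner_smul_right, T00, mul_zero, mul_zero] at e
      exact zero_ne_one e
  let g : ℝ → ℝ := fun t => ((1 - t) * t * β.re + t ^ 2) / ‖x t‖ ^ 2
  have hxT : ∀ t, ⟪x t, T (x t)⟫_ℂ = (((1 - t) * t * β.re + t ^ 2 : ℝ) : ℂ) := by
    intro t
    simp only [x, map_add, map_smul, inner_add_left, inner_add_right, inner_smul_left,
      inner_smul_right, T00, T11, Complex.conj_ofReal]
    have hb : (β.re : ℂ) = ⟪u, T v⟫_ℂ + ⟪v, T u⟫_ℂ := by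
      rw [← hβ]; exact Complex.ext (by simp) (by simp [hβim])
    push_cast
    rw [hb]; ring
  have gc : Continuous g := Continuous.div (by fun_prop) (by fun_prop)
    fun t => pow_ne_zero 2 (norm_ne_zero_iff.mpr (hx0 t))
  have g0 : g 0 = 0 := by simp [g]
  have g1 : g 1 = 1 := by simp [g, x, hvn]
  obtain ⟨t, -, ht⟩ := intermediate_value_Icc (zero_le_one (α := ℝ)) gc.continuousOn
    (show s ∈ Set.Icc (g 0) (g 1) by rw [g0, g1]; exact ⟨hs.le, by linarith⟩)
  have hn : 0 < ‖x t‖ := norm_pos_iff.mpr (hx0 t)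
  set z : E := ((‖x t‖⁻¹ : ℝ) : ℂ) • x t with hz
  have hz1 : ‖z‖ = 1 := by simp [hz, norm_smul, hn.ne']
  have hzT : ⟪z, T z⟫_ℂ = (s : ℂ) := by
    rw [hz, map_smul, inner_smul_left, inner_smul_right, hxT, Complex.conj_ofReal, ← ht]
    simp only [g]; push_cast; field_simp
  have hzB : ⟪z, B z⟫_ℂ = r • w1 + s • w2 := by
    rw [hT, inner_self_eq_norm_sq_to_K, hz1] at hzT
    simp only [RCLike.ofReal_one, one_pow, mul_one] at hzT
    rw [inv_mul_eq_iff_eq_mul₀ hd, sub_eq_iff_eq_add] at hzT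
    rw [hzT, Complex.real_smul, Complex.real_smul, show r = 1 - s by linarith]
    push_cast; ring
  exact hzB ▸ mem_numRange hz1

section Gauge

variable (A : Finset ℂ) (m : ℕ)

/-- The real functional attached to `a`. -/
def rdot (a z : ℂ) : ℝ := (conj a * z).re

lemma rdot_smul (a z : ℂ) (r : ℝ) : rdot a ((r : ℂ) * z) = r * rdot a z := by
  simp [rdot, Complex.mul_re, Complex.mul_im]; ring

/-- The power of the gauge. -/
def gauge' (z : ℂ) : ℝ := ∑ a ∈ A, ppow (m + 2) (rdot a z)

/-- Its restriction to the unit circle. -/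
def circ (t : ℝ) : ℝ := gauge' A m (Complex.exp (t * Complex.I))

/-- The angular derivative of `circ`. -/
def circD (t : ℝ) : ℝ :=
  ∑ a ∈ A, (m + 2 : ℕ) * ppow (m + 1) (rdot a (Complex.exp (t * Complex.I))) *
    rdot a (Complex.exp (t * Complex.I) * Complex.I)

lemma hasDerivAt_exp_I (t : ℝ) :
    HasDerivAt (fun t : ℝ => Complex.exp (t * Complex.I))
      (Complex.exp (t * Complex.I) * Complex.I) t := by
  have h : HasDerivAt (fun t : ℝ => (t:ℂ) * Complex.I) (1 * Complex.I) t :=
    (hasDerivAt_id t).ofReal_comp.mul_const _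
  simpa using h.cexp

lemma hasDerivAt_circ (t : ℝ) : HasDerivAt (circ A m) (circD A m t) t := by
  refine HasDerivAt.fun_sum fun a _ => ?_
  have h1 : HasDerivAt (fun t : ℝ => rdot a (Complex.exp (t * Complex.I)))
      (rdot a (Complex.exp (t * Complex.I) * Complex.I)) t :=
    Complex.reCLM.hasFDerivAt.comp_hasDerivAt t ((hasDerivAt_exp_I t).const_mul (conj a))
  exact (hasDerivAt_ppow m _).comp t h1

lemma continuous_circD : Continuous (circD A m) := by
  have := continuous_ppow (m + 1)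
  unfold circD rdot
  fun_prop

lemma circ_periodic : circ A m (2 * π) = circ A m 0 := by
  simp only [circ, Complex.ofReal_mul, Complex.ofReal_ofNat, Complex.ofReal_zero, zero_mul,
    Complex.exp_zero]
  rw [Complex.exp_two_pi_mul_I]

lemma normal_eq (t : ℝ) :
    (((m + 2 : ℕ) * circ A m t : ℝ) + (circD A m t : ℝ) * Complex.I) *
        Complex.exp (t * Complex.I) =
      ∑ a ∈ A, ((((m + 2 : ℕ) : ℝ) * ppow (m + 1) (rdot a (Complex.exp (t * Complex.I))) : ℝ) : ℂ)
        * a := by
  set e := Complex.exp (t * Complex.I) with he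
  have hee : e * conj e = 1 := by
    rw [Complex.mul_conj, Complex.normSq_eq_norm_sq, he, Complex.norm_exp_ofReal_mul_I]; simp
  rw [circ, gauge', circD, mul_sum, Complex.ofReal_sum, Complex.ofReal_sum, ← he, add_mul,
    sum_mul, sum_mul, sum_mul, ← sum_add_distrib]
  refine sum_congr rfl fun a _ => ?_
  have key : ((rdot a e : ℝ) : ℂ) + (rdot a (e * Complex.I) : ℝ) * Complex.I = conj (conj a * e) := by
    apply Complex.ext <;> simp [rdot, Complex.mul_re, Complex.mul_im] <;> ring
  rw [← ppow_succ_mul]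
  push_cast
  calc _ = ((m:ℂ) + 2) * (ppow (m + 1) (rdot a e) : ℂ) *
        (((rdot a e : ℝ) : ℂ) + (rdot a (e * Complex.I) : ℝ) * Complex.I) * e := by ring
    _ = _ := by
      rw [key, map_mul, Complex.conj_conj]
      linear_combination ((m:ℂ) + 2) * (ppow (m + 1) (rdot a e) : ℂ) * a * hee

/-- The radius of the curve. -/
def radius (t : ℝ) : ℝ := circ A m t ^ (-1 / ((m + 2 : ℕ) : ℝ))

/-- The point of the curve. -/
def point (t : ℝ) : ℂ := (radius A m t : ℂ) * Complex.exp (t * Complex.I)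

/-- The velocity of the curve. -/
def speed (t : ℝ) : ℂ :=
  Complex.I * ((radius A m t / ((m + 2 : ℕ) * circ A m t) : ℝ) : ℂ) *
    ((((m + 2 : ℕ) * circ A m t : ℝ) + (circD A m t : ℝ) * Complex.I) *
      Complex.exp (t * Complex.I))

variable {A m}

lemma radius_pos (hS : ∀ t, 0 < circ A m t) (t : ℝ) : 0 < radius A m t :=
  Real.rpow_pos_of_pos (hS t) _

lemma radius_pow (hS : ∀ t, 0 < circ A m t) (t : ℝ) :
    radius A m t ^ (m + 2) * circ A m t = 1 := by
  rw [radius, ← Real.rpow_natCast (_ ^ _), ← Real.rpow_mul (hS t).le]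
  rw [show -1 / ((m + 2 : ℕ) : ℝ) * ((m + 2 : ℕ) : ℝ) = -1 from div_mul_cancel₀ _ (by positivity),
    Real.rpow_neg_one, inv_mul_cancel₀ (hS t).ne']

lemma hasDerivAt_point (hS : ∀ t, 0 < circ A m t) (t : ℝ) :
    HasDerivAt (point A m) (speed A m t) t := by
  have h1 := (hasDerivAt_circ A m t).rpow_const (p := -1 / ((m + 2 : ℕ) : ℝ)) (Or.inl (hS t).ne')
  have h2 := h1.ofReal_comp.mul (hasDerivAt_exp_I t)
  refine h2.congr_deriv ?_
  have e : circ A m t ^ (-1 / ((m + 2 : ℕ) : ℝ) - 1) = radius A m t / circ A m t := by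
    rw [Real.rpow_sub_one (hS t).ne', radius]
  have er : circ A m t ^ (-1 / ((m + 2 : ℕ) : ℝ)) = radius A m t := rfl
  rw [e, speed, er]
  generalize radius A m t = R
  have hc : (circ A m t : ℂ) ≠ 0 := by exact_mod_cast (hS t).ne'
  have hp : ((m:ℂ) + 2) ≠ 0 := by norm_cast
  push_cast
  field_simp
  linear_combination (-(R : ℂ) * (circD A m t : ℂ)) * Complex.I_sq

lemma gauge'_point (hS : ∀ t, 0 < circ A m t) (t : ℝ) : gauge' A m (point A m t) = 1 := by
  rw [← radius_pow hS t, circ, gauge', gauge', mul_sum]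
  refine sum_congr rfl fun a _ => ?_
  rw [point, rdot_smul]
  simp only [ppow, ← mul_pow]
  rw [mul_max_of_nonneg _ _ (radius_pos hS t).le, mul_zero]

lemma rdot_point_le (hS : ∀ t, 0 < circ A m t) (t : ℝ) {a : ℂ} (ha : a ∈ A) :
    rdot a (point A m t) ≤ 1 := by
  by_contra h
  have h' := not_le.mp h
  have h1 : ppow (m + 2) (rdot a (point A m t)) ≤ 1 := by
    rw [← gauge'_point hS t]
    exact single_le_sum (f := fun a => ppow (m + 2) (rdot a (point A m t)))
      (fun b _ => ppow_nonneg _ _) ha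
  have h2 : 1 < ppow (m + 2) (rdot a (point A m t)) := by
    rw [ppow, max_eq_left (by linarith)]; exact one_lt_pow₀ h' (by omega)
  linarith

lemma radius_mul_normal (hS : ∀ t, 0 < circ A m t) (t : ℝ) (w : ℂ)
    (hw : gauge' A m w ≤ 1) :
    0 ≤ (conj ((((m + 2 : ℕ) * circ A m t : ℝ) + (circD A m t : ℝ) * Complex.I) *
        Complex.exp (t * Complex.I)) * (point A m t - w)).re := by
  rw [normal_eq, map_sum, sum_mul, Complex.re_sum]
  set e := Complex.exp (t * Complex.I) with he
  set r := radius A m t with hr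
  have hrp := radius_pos hS t
  have term : ∀ a : ℂ,
      (conj (((((m + 2 : ℕ) : ℝ) * ppow (m + 1) (rdot a e) : ℝ) : ℂ) * a) * (point A m t - w)).re
        = ((m:ℝ) + 2) * (ppow (m + 1) (rdot a e) * (r * rdot a e) -
            ppow (m + 1) (rdot a e) * rdot a w) := by
    intro a
    rw [map_mul, Complex.conj_ofReal, mul_assoc, Complex.re_ofReal_mul, mul_sub,
      Complex.sub_re, point, ← he, ← hr]
    show _ * (rdot a ((r:ℂ) * e) - rdot a w) = _
    rw [rdot_smul]; push_cast; ring
  simp only [term, ← mul_sum]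
  refine mul_nonneg (by positivity) ?_
  rw [sum_sub_distrib]
  have hy : ∀ a : ℂ, ((m:ℝ) + 2) * (r ^ (m + 1) * (ppow (m + 1) (rdot a e) * rdot a w)) ≤
      ((m:ℝ) + 1) * (r ^ (m + 2) * ppow (m + 2) (rdot a e)) + ppow (m + 2) (rdot a w) := by
    intro a
    have h := young_pow (x := r * max (rdot a e) 0) (y := max (rdot a w) 0)
      (mul_nonneg hrp.le (le_max_right _ _)) (le_max_right _ _) (m + 1)
    push_cast at h
    rw [mul_pow, mul_pow] at h
    simp only [ppow]
    refine le_trans ?_ (le_of_le_of_eq h rfl)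
    rw [show (m:ℝ) + 1 + 1 = (m:ℝ) + 2 by ring, mul_assoc (r ^ (m + 1))]
    gcongr
    exact le_max_left _ _
  have hsum := sum_le_sum (s := A) fun a _ => hy a
  rw [sum_add_distrib, ← mul_sum, ← mul_sum, ← mul_sum, ← mul_sum] at hsum
  have hc : r ^ (m + 2) * ∑ a ∈ A, ppow (m + 2) (rdot a e) = 1 := radius_pow hS t
  rw [hc] at hsum
  have hg : ∑ a ∈ A, ppow (m + 2) (rdot a w) ≤ 1 := hw
  have h4 : ∑ a ∈ A, ppow (m + 1) (rdot a e) * (r * rdot a e) =
      r * ∑ a ∈ A, ppow (m + 2) (rdot a e) := by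
    rw [mul_sum]
    refine sum_congr rfl fun a _ => ?_
    rw [← ppow_succ_mul]; ring
  rw [h4]
  have hp : 0 < r ^ (m + 1) := pow_pos hrp _
  refine nonneg_of_mul_nonneg_right ?_ hp
  rw [mul_sub, ← mul_assoc, ← pow_succ, hc]
  nlinarith

/-- The gauge curve is a contour for `B`. -/
def contour [FiniteDimensional ℂ E] (B : E →L[ℂ] E) (hS : ∀ t, 0 < circ A m t)
    (hW : ∀ w ∈ numRange B, gauge' A m w < 1) : Contour B where
  pos := point A m
  vel := speed A m
  hasDeriv := hasDerivAt_point hS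
  cont_vel := by
    have h1 : Continuous (circ A m) :=
      continuous_iff_continuousAt.mpr fun t => (hasDerivAt_circ A m t).continuousAt
    have h2 := continuous_circD A m
    have h3 : Continuous (radius A m) := h1.rpow_const fun t => Or.inl (hS t).ne'
    have h4 : Continuous fun t => radius A m t / ((m + 2 : ℕ) * circ A m t) :=
      h3.div (continuous_const.mul h1) fun t => mul_ne_zero (by positivity) (hS t).ne'
    unfold speed
    fun_prop
  closed := by
    simp only [point, radius, circ_periodic]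
    congr 1
    simp [Complex.exp_two_pi_mul_I]
  winding := by
    have e : ∀ t, speed A m t / point A m t =
        ((-(circD A m t / circ A m t) / (m + 2 : ℕ) : ℝ) : ℂ) + Complex.I := by
      intro t
      have hc : (circ A m t : ℂ) ≠ 0 := by exact_mod_cast (hS t).ne'
      have hr : (radius A m t : ℂ) ≠ 0 := by exact_mod_cast (radius_pos hS t).ne'
      have he := Complex.exp_ne_zero (t * Complex.I)
      have hp : ((m:ℂ) + 2) ≠ 0 := by norm_cast
      rw [speed, point]
      push_cast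
      field_simp
      linear_combination (circD A m t : ℂ) * Complex.I_sq
    rw [integral_congr fun t _ => e t]
    have hd : ∀ t ∈ Set.uIcc (0:ℝ) (2 * π),
        HasDerivAt (fun t : ℝ => -Real.log (circ A m t) / (m + 2 : ℕ))
          (-(circD A m t / circ A m t) / (m + 2 : ℕ)) t := fun t _ =>
      (((hasDerivAt_circ A m t).log (hS t).ne').neg.div_const _)
    have hc : Continuous fun t => -(circD A m t / circ A m t) / ((m + 2 : ℕ) : ℝ) :=
      (((continuous_circD A m).div
        (continuous_iff_continuousAt.mpr fun t => (hasDerivAt_circ A m t).continuousAt)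
        fun t => (hS t).ne').neg).div_const _
    have i1 : IntervalIntegrable (fun t => ((-(circD A m t / circ A m t) / (m + 2 : ℕ) : ℝ) : ℂ))
        volume 0 (2 * π) := (Complex.continuous_ofReal.comp hc).intervalIntegrable _ _
    rw [integral_add i1 (Continuous.intervalIntegrable continuous_const _ _),
      intervalIntegral.integral_ofReal,
      integral_eq_sub_of_hasDerivAt hd (hc.intervalIntegrable _ _), circ_periodic, sub_self,
      intervalIntegral.integral_const]
    simp [Complex.real_smul]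
  avoid := by
    intro t s h0 h1 u hu h
    have hg := gauge'_point hS t
    have h2 : gauge' A m (point A m t) ≤ gauge' A m ⟪u, B u⟫_ℂ := by
      rw [h, gauge', gauge']
      refine sum_le_sum fun a _ => ?_
      rw [rdot_smul]
      simp only [ppow]
      refine pow_le_pow_left₀ (le_max_right _ _) ?_ _
      rw [← mul_zero s, ← mul_max_of_nonneg _ _ h0, mul_zero]
      exact mul_le_of_le_one_left (le_max_right _ _) h1
    have := hW _ (mem_numRange hu)
    linarith
  support := by
    intro t u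
    rcases eq_or_ne u 0 with rfl | hu
    · simp
    have hn : 0 < ‖u‖ := norm_pos_iff.mpr hu
    set v : E := ((‖u‖⁻¹ : ℝ) : ℂ) • u with hv
    have hv1 : ‖v‖ = 1 := by simp [hv, norm_smul, hn.ne']
    have huv : ⟪u, B u⟫_ℂ = (‖u‖ : ℂ) ^ 2 * ⟪v, B v⟫_ℂ := by
      have hn' : (‖u‖ : ℂ) ≠ 0 := by exact_mod_cast hn.ne'
      rw [hv, map_smul, inner_smul_left, inner_smul_right, Complex.conj_ofReal]
      push_cast
      field_simp
    have hk := radius_mul_normal hS t _ (hW _ (mem_numRange hv1)).le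
    have hc : speed A m t / (2 * π * Complex.I) =
        ((radius A m t / ((m + 2 : ℕ) * circ A m t) / (2 * π) : ℝ) : ℂ) *
          ((((m + 2 : ℕ) * circ A m t : ℝ) + (circD A m t : ℝ) * Complex.I) *
            Complex.exp (t * Complex.I)) := by
      have hI := Complex.I_ne_zero
      have hpi : (π : ℂ) ≠ 0 := by exact_mod_cast Real.pi_ne_zero
      rw [speed]; push_cast; field_simp
    rw [hc, map_mul, Complex.conj_ofReal, huv,
      show point A m t * (‖u‖ : ℂ) ^ 2 - (‖u‖ : ℂ) ^ 2 * ⟪v, B v⟫_ℂ =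
        ((‖u‖ ^ 2 : ℝ) : ℂ) * (point A m t - ⟪v, B v⟫_ℂ) by push_cast; ring,
      mul_mul_mul_comm, ← Complex.ofReal_mul, Complex.re_ofReal_mul]
    refine mul_nonneg (mul_nonneg ?_ (sq_nonneg _)) hk
    have := radius_pos hS t
    have := hS t
    positivity

end Gauge

end Vale.Agent.P123
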