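import Vale.Agent.P123.Kernel

/-!
The double layer kernel of a closed convex curve around the numerical range, and the moments of a
polynomial on the curve.
-/

noncomputable section

set_option linter.unusedSectionVars false

open Finset intervalIntegral MeasureTheory
open scoped InnerProductSpace Real ComplexConjugate

namespace Vale.Agent.P123

variable {E : Type*} [NormedAddCommGroup E] [InnerProductSpace ℂ E] [FiniteDimensional ℂ E]

lemma isUnit_of_injective (F : E →L[ℂ] E) (h : ∀ u, F u = 0 → u = 0) : IsUnit F := by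
  have hinj : Function.Injective F.toLinearMap := by
    rw [← LinearMap.ker_eq_bot, LinearMap.ker_eq_bot']
    exact h
  let e := (LinearEquiv.ofInjectiveEndo _ hinj).toContinuousLinearEquiv
  exact ⟨ContinuousLinearEquiv.toUnit e, ContinuousLinearMap.ext fun u => rfl⟩

/-- A closed curve around the numerical range of `B`, positively oriented and supporting it. -/
structure Contour (B : E →L[ℂ] E) where
  pos : ℝ → ℂ
  vel : ℝ → ℂ
  hasDeriv : ∀ t, HasDerivAt pos (vel t) t
  cont_vel : Continuous vel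
  closed : pos (2 * π) = pos 0
  winding : ∫ t in (0:ℝ)..(2 * π), vel t / pos t = 2 * π * Complex.I
  avoid : ∀ t, ∀ s : ℝ, 0 ≤ s → s ≤ 1 → ∀ u : E, ‖u‖ = 1 → pos t ≠ s * ⟪u, B u⟫_ℂ
  support : ∀ t, ∀ u : E,
    0 ≤ (conj (vel t / (2 * π * Complex.I)) * (pos t * (‖u‖ : ℂ) ^ 2 - ⟪u, B u⟫_ℂ)).re

namespace Contour

variable {B : E →L[ℂ] E} (γ : Contour B)

lemma continuous_pos : Continuous γ.pos :=
  continuous_iff_continuousAt.mpr fun t => (γ.hasDeriv t).continuousAt

/-- The pencil to invert. -/
def pencil (s t : ℝ) : E →L[ℂ] E := γ.pos t • (1 : E →L[ℂ] E) - (s : ℂ) • B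

lemma isUnit_pencil {s : ℝ} (h0 : 0 ≤ s) (h1 : s ≤ 1) (t : ℝ) : IsUnit (γ.pencil s t) := by
  refine isUnit_of_injective _ fun u hu => ?_
  by_contra hne
  have hn : 0 < ‖u‖ := norm_pos_iff.mpr hne
  set w : E := ((‖u‖⁻¹ : ℝ) : ℂ) • u with hw
  have hw1 : ‖w‖ = 1 := by simp [hw, norm_smul, hn.ne']
  have hz : γ.pencil s t w = 0 := by rw [hw, map_smul, hu, smul_zero]
  have h2 := congrArg (fun z => ⟪w, z⟫_ℂ) hz
  simp only [pencil, _root_.sub_apply, _root_.smul_apply,
    one_apply_eq_self, inner_sub_right, inner_smul_right, inner_zero_right,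
    inner_self_eq_norm_sq_to_K, hw1] at h2
  simp only [RCLike.ofReal_one, one_pow, mul_one, sub_eq_zero] at h2
  exact γ.avoid t s h0 h1 w hw1 h2

/-- The resolvent along the curve. -/
def res (s t : ℝ) : E →L[ℂ] E := Ring.inverse (γ.pencil s t)

lemma continuous_pencil : Continuous fun p : ℝ × ℝ => γ.pencil p.1 p.2 := by
  have := γ.continuous_pos
  unfold pencil
  fun_prop

lemma continuousOn_res :
    ContinuousOn (fun p : ℝ × ℝ => γ.res p.1 p.2) (Set.Icc 0 1 ×ˢ Set.univ) := by
  intro p hp
  obtain ⟨u, hu⟩ := γ.isUnit_pencil hp.1.1 hp.1.2 p.2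
  have h1 : ContinuousAt (Ring.inverse : (E →L[ℂ] E) → (E →L[ℂ] E)) (γ.pencil p.1 p.2) :=
    hu ▸ NormedRing.inverse_continuousAt u
  exact (h1.comp_of_eq γ.continuous_pencil.continuousAt rfl).continuousWithinAt

lemma continuous_res {s : ℝ} (h0 : 0 ≤ s) (h1 : s ≤ 1) : Continuous (γ.res s) :=
  γ.continuousOn_res.comp_continuous (Continuous.prodMk_right s) fun _ => ⟨⟨h0, h1⟩, trivial⟩

lemma pencil_mul_res {s : ℝ} (h0 : 0 ≤ s) (h1 : s ≤ 1) (t : ℝ) :
    γ.pencil s t * γ.res s t = 1 := Ring.mul_inverse_cancel _ (γ.isUnit_pencil h0 h1 t)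

lemma res_mul_pencil {s : ℝ} (h0 : 0 ≤ s) (h1 : s ≤ 1) (t : ℝ) :
    γ.res s t * γ.pencil s t = 1 := Ring.inverse_mul_cancel _ (γ.isUnit_pencil h0 h1 t)

lemma commute_res {F : E →L[ℂ] E} (hF : Commute B F) {s : ℝ} (h0 : 0 ≤ s) (h1 : s ≤ 1) (t : ℝ) :
    Commute (γ.res s t) F := by
  have hp : Commute (γ.pencil s t) F :=
    ((Commute.one_left F).smul_left _).sub_left (hF.smul_left _)
  calc γ.res s t * F
      = γ.res s t * (F * (γ.pencil s t * γ.res s t)) := by rw [γ.pencil_mul_res h0 h1, mul_one]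
    _ = γ.res s t * ((F * γ.pencil s t) * γ.res s t) := by rw [mul_assoc F]
    _ = γ.res s t * ((γ.pencil s t * F) * γ.res s t) := by rw [hp.eq]
    _ = (γ.res s t * γ.pencil s t) * F * γ.res s t := by simp only [mul_assoc]
    _ = F * γ.res s t := by rw [γ.res_mul_pencil h0 h1, one_mul]

lemma res_sub_res {s r : ℝ} (h0 : 0 ≤ s) (h1 : s ≤ 1) (g0 : 0 ≤ r) (g1 : r ≤ 1) (t : ℝ) :
    γ.res r t - γ.res s t = ((r - s : ℝ) : ℂ) • (γ.res r t * B * γ.res s t) := by
  have e : γ.pencil s t - γ.pencil r t = ((r - s : ℝ) : ℂ) • B := by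
    simp only [pencil, Complex.ofReal_sub, sub_smul]; abel
  calc γ.res r t - γ.res s t
      = γ.res r t * (γ.pencil s t * γ.res s t) - (γ.res r t * γ.pencil r t) * γ.res s t := by
        rw [γ.pencil_mul_res h0 h1, γ.res_mul_pencil g0 g1, mul_one, one_mul]
    _ = γ.res r t * (γ.pencil s t - γ.pencil r t) * γ.res s t := by noncomm_ring
    _ = _ := by rw [e, mul_smul_comm, smul_mul_assoc]

lemma hasDerivAt_res {s : ℝ} (h0 : 0 ≤ s) (h1 : s ≤ 1) (t : ℝ) :
    HasDerivAt (γ.res s) (-(γ.vel t • (γ.res s t * γ.res s t))) t := by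
  obtain ⟨u, hu⟩ := γ.isUnit_pencil h0 h1 t
  have hp : HasDerivAt (γ.pencil s) (γ.vel t • (1 : E →L[ℂ] E)) t :=
    ((γ.hasDeriv t).smul_const (1 : E →L[ℂ] E)).sub_const _
  have h := (hu ▸ hasFDerivAt_ringInverse (𝕜 := ℝ) u).comp_hasDerivAt t hp
  refine h.congr_deriv ?_
  have er : γ.res s t = ↑u⁻¹ := by rw [res, ← hu, Ring.inverse_unit]
  simp [er, ContinuousLinearMap.mulLeftRight_apply]

lemma integral_vel_res_sq {s : ℝ} (h0 : 0 ≤ s) (h1 : s ≤ 1) :
    ∫ t in (0:ℝ)..(2 * π), γ.vel t • (γ.res s t * γ.res s t) = 0 := by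
  have hc : Continuous fun t => γ.vel t • (γ.res s t * γ.res s t) :=
    γ.cont_vel.smul ((γ.continuous_res h0 h1).mul (γ.continuous_res h0 h1))
  have h := integral_eq_sub_of_hasDerivAt (fun t _ => γ.hasDerivAt_res h0 h1 t)
    (hc.neg.intervalIntegrable 0 (2 * π))
  have e : γ.res s (2 * π) = γ.res s 0 := by simp [res, pencil, γ.closed]
  rwa [intervalIntegral.integral_neg, e, sub_self, neg_eq_zero] at h

/-- The operator Cauchy integral at parameter `s`. -/
def total (s : ℝ) : E →L[ℂ] E := ∫ t in (0:ℝ)..(2 * π), γ.vel t • γ.res s t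

lemma exists_total_quadratic :
    ∃ K : ℝ, ∀ s r : ℝ, 0 ≤ s → s ≤ 1 → 0 ≤ r → r ≤ 1 →
      ‖γ.total r - γ.total s‖ ≤ K * (r - s) ^ 2 := by
  obtain ⟨M, hM⟩ := ((isCompact_Icc (a := (0:ℝ)) (b := 1)).prod
    (isCompact_Icc (a := (0:ℝ)) (b := 2 * π))).exists_bound_of_continuousOn
    (γ.continuousOn_res.mono (Set.prod_mono subset_rfl (Set.subset_univ _)))
  obtain ⟨V, hV⟩ := (isCompact_Icc (a := (0:ℝ)) (b := 2 * π)).exists_bound_of_continuousOn
    γ.cont_vel.continuousOn
  refine ⟨V * (M * ‖B‖ * M * ‖B‖ * M) * |2 * π - 0|, fun s r h0 h1 g0 g1 => ?_⟩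
  have cs := γ.continuous_res h0 h1
  have cr := γ.continuous_res g0 g1
  have key : ∀ t, γ.vel t • γ.res r t - γ.vel t • γ.res s t =
      ((r - s : ℝ) : ℂ) • (B * (γ.vel t • (γ.res s t * γ.res s t))) +
        ((r - s : ℝ) : ℂ) ^ 2 • (γ.vel t • (γ.res r t * B * γ.res s t * B * γ.res s t)) := by
    intro t
    have e := γ.res_sub_res h0 h1 g0 g1 t
    have cm := γ.commute_res (Commute.refl B) h0 h1 t
    have e2 : γ.res r t * B * γ.res s t =
        B * (γ.res s t * γ.res s t) +
          ((r - s : ℝ) : ℂ) • (γ.res r t * B * γ.res s t * B * γ.res s t) := by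
      conv_lhs => rw [sub_eq_iff_eq_add.mp e]
      rw [add_mul, add_mul, add_comm, smul_mul_assoc, smul_mul_assoc, cm.eq, mul_assoc B]
    conv_lhs => rw [← smul_sub, e, e2]
    rw [mul_smul_comm]
    module
  have i1 : IntervalIntegrable (fun t => γ.vel t • γ.res r t) volume 0 (2 * π) :=
    (γ.cont_vel.smul cr).intervalIntegrable _ _
  have i2 : IntervalIntegrable (fun t => γ.vel t • γ.res s t) volume 0 (2 * π) :=
    (γ.cont_vel.smul cs).intervalIntegrable _ _
  have c3 : Continuous fun t => γ.vel t • (γ.res s t * γ.res s t) := γ.cont_vel.smul (cs.mul cs)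
  have c4 : Continuous fun t => γ.vel t • (γ.res r t * B * γ.res s t * B * γ.res s t) :=
    γ.cont_vel.smul ((((cr.mul continuous_const).mul cs).mul continuous_const).mul cs)
  have hB : ∫ t in (0:ℝ)..(2 * π), B * (γ.vel t • (γ.res s t * γ.res s t)) = 0 := by
    have := (ContinuousLinearMap.mul ℂ (E →L[ℂ] E) B).intervalIntegral_comp_comm
      (c3.intervalIntegrable (μ := volume) 0 (2 * π))
    rw [γ.integral_vel_res_sq h0 h1, map_zero] at this
    exact this
  have i3 : IntervalIntegrable (fun t => ((r - s : ℝ) : ℂ) •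
      (B * (γ.vel t • (γ.res s t * γ.res s t)))) volume 0 (2 * π) :=
    Continuous.intervalIntegrable (by fun_prop) _ _
  have i4 : IntervalIntegrable (fun t => ((r - s : ℝ) : ℂ) ^ 2 •
      (γ.vel t • (γ.res r t * B * γ.res s t * B * γ.res s t))) volume 0 (2 * π) :=
    Continuous.intervalIntegrable (by fun_prop) _ _
  rw [total, total, ← integral_sub i1 i2, integral_congr (fun t _ => key t), integral_add i3 i4,
    intervalIntegral.integral_smul, intervalIntegral.integral_smul, hB, smul_zero, zero_add,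
    norm_smul, norm_pow, Complex.norm_real, Real.norm_eq_abs, sq_abs, mul_comm _ ((r - s) ^ 2)]
  refine mul_le_mul_of_nonneg_left (norm_integral_le_of_norm_le_const fun t ht => ?_) (sq_nonneg _)
  have ht' : t ∈ Set.Icc (0:ℝ) (2 * π) := by
    rw [Set.uIoc_of_le (by positivity)] at ht; exact Set.Ioc_subset_Icc_self ht
  have hr := hM (r, t) ⟨⟨g0, g1⟩, ht'⟩
  have hs := hM (s, t) ⟨⟨h0, h1⟩, ht'⟩
  have hM0 : 0 ≤ M := (norm_nonneg _).trans hs
  rw [norm_smul]
  refine mul_le_mul (hV t ht') ?_ (norm_nonneg _) ((norm_nonneg _).trans (hV t ht'))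
  refine (norm_mul_le _ _).trans (mul_le_mul ?_ hs (norm_nonneg _) (by positivity))
  refine (norm_mul_le _ _).trans (mul_le_mul ?_ le_rfl (norm_nonneg _) (by positivity))
  refine (norm_mul_le _ _).trans (mul_le_mul ?_ hs (norm_nonneg _) (by positivity))
  exact (norm_mul_le _ _).trans (mul_le_mul hr le_rfl (norm_nonneg _) hM0)

lemma total_eq : γ.total 1 = (2 * π * Complex.I : ℂ) • (1 : E →L[ℂ] E) := by
  have h0 : γ.total 0 = (2 * π * Complex.I : ℂ) • (1 : E →L[ℂ] E) := by
    have e : ∀ t, γ.vel t • γ.res 0 t = (γ.vel t / γ.pos t) • (1 : E →L[ℂ] E) := by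
      intro t
      have hu := γ.isUnit_pencil le_rfl zero_le_one t
      rcases subsingleton_or_nontrivial E with hE | hE
      · exact ContinuousLinearMap.ext fun u => Subsingleton.elim _ _
      have hp : γ.pos t ≠ 0 := by
        intro h
        simp [pencil, h] at hu
      have h2 : γ.res 0 t = (γ.pos t)⁻¹ • (1 : E →L[ℂ] E) := by
        have := γ.pencil_mul_res le_rfl zero_le_one t
        simp only [pencil, Complex.ofReal_zero, zero_smul, sub_zero, smul_mul_assoc, one_mul]
          at this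
        rw [← this, smul_smul, inv_mul_cancel₀ hp, one_smul]
      rw [h2, smul_smul, div_eq_mul_inv]
    rw [total, integral_congr (fun t _ => e t), intervalIntegral.integral_smul_const, γ.winding]
  obtain ⟨K, hK⟩ := γ.exists_total_quadratic
  have hn : ∀ n : ℕ, ‖γ.total 1 - γ.total 0‖ ≤ K / (n + 1) := by
    intro n
    have step : ∀ i : ℕ, i ≤ n + 1 →
        ‖γ.total ((i:ℝ) / (n + 1)) - γ.total 0‖ ≤ i * (K / ((n:ℝ) + 1) ^ 2) := by
      intro i
      induction i with
      | zero => intro _; simp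
      | succ j ih =>
        intro hj
        have hpos : (0:ℝ) < (n:ℝ) + 1 := by positivity
        have b1 : (j:ℝ) / (n + 1) ≤ 1 := by
          rw [div_le_one hpos]; exact_mod_cast Nat.le_of_succ_le hj
        have b2 : ((j + 1 : ℕ) : ℝ) / (n + 1) ≤ 1 := by
          rw [div_le_one hpos]; exact_mod_cast hj
        have h := hK _ _ (by positivity) b1 (by positivity) b2
        have e : (((j + 1 : ℕ) : ℝ) / (n + 1) - (j:ℝ) / (n + 1)) ^ 2 = 1 / ((n:ℝ) + 1) ^ 2 := by
          push_cast; field_simp; ring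
        rw [e] at h
        refine (norm_sub_le_norm_sub_add_norm_sub _ (γ.total ((j:ℝ) / (n + 1))) _).trans ?_
        refine (add_le_add h (ih (Nat.le_of_succ_le hj))).trans (le_of_eq ?_)
        push_cast; ring
    have := step (n + 1) le_rfl
    push_cast at this
    rw [div_self (by positivity)] at this
    refine this.trans (le_of_eq ?_)
    field_simp
  have : ‖γ.total 1 - γ.total 0‖ ≤ 0 := by
    have hl : Filter.Tendsto (fun n : ℕ => K / ((n:ℝ) + 1)) Filter.atTop (nhds 0) := by
      have := (tendsto_one_div_add_atTop_nhds_zero_nat (𝕜 := ℝ)).const_mul K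
      simpa [div_eq_mul_inv] using this
    exact ge_of_tendsto' hl hn
  rw [← h0]
  exact sub_eq_zero.mp (norm_le_zero_iff.mp this)

/-- The normalised complex weight of the curve. -/
def weight (t : ℝ) : ℂ := γ.vel t / (2 * π * Complex.I)

lemma continuous_weight : Continuous γ.weight := γ.cont_vel.div_const _

/-- The Cauchy integral of a boundary function. -/
def cauchy (f : ℝ → ℂ) : E →L[ℂ] E :=
  ∫ t in (0:ℝ)..(2 * π), (f t * γ.weight t) • γ.res 1 t

lemma continuous_cauchy_integrand {f : ℝ → ℂ} (hf : Continuous f) :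
    Continuous fun t => (f t * γ.weight t) • γ.res 1 t :=
  (hf.mul γ.continuous_weight).smul (γ.continuous_res zero_le_one le_rfl)

lemma cauchy_one : γ.cauchy (fun _ => 1) = 1 := by
  have e : ∀ t, ((1:ℂ) * γ.weight t) • γ.res 1 t =
      (2 * π * Complex.I : ℂ)⁻¹ • (γ.vel t • γ.res 1 t) := fun t => by
    rw [one_mul, smul_smul, weight, div_eq_mul_inv, mul_comm]
  have h : (2 * π * Complex.I : ℂ) ≠ 0 := by simp [Real.pi_ne_zero]
  rw [cauchy, integral_congr (fun t _ => e t), intervalIntegral.integral_smul, ← total,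
    γ.total_eq, smul_smul, inv_mul_cancel₀ h, one_smul]

lemma cauchy_pow (k : ℕ) : γ.cauchy (fun t => γ.pos t ^ k) = B ^ k := by
  induction k with
  | zero => simpa using γ.cauchy_one
  | succ k ih =>
    have cp : Continuous fun t => γ.pos t ^ k := γ.continuous_pos.pow k
    have e : ∀ t, (γ.pos t ^ (k + 1) * γ.weight t) • γ.res 1 t =
        (γ.pos t ^ k * γ.weight t) • (1 : E →L[ℂ] E) +
          B * ((γ.pos t ^ k * γ.weight t) • γ.res 1 t) := by
      intro t
      have h := γ.pencil_mul_res zero_le_one le_rfl t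
      simp only [pencil, Complex.ofReal_one, one_smul, sub_mul, smul_mul_assoc, one_mul] at h
      rw [sub_eq_iff_eq_add] at h
      rw [mul_smul_comm, ← smul_add, ← h, smul_smul]
      congr 1; ring
    have hz : ∫ t in (0:ℝ)..(2 * π), γ.pos t ^ k * γ.weight t = 0 := by
      set q : ℂ := ((k:ℂ) + 1) * (2 * π * Complex.I) with hq
      have hd : ∀ t ∈ Set.uIcc (0:ℝ) (2 * π),
          HasDerivAt (fun t => γ.pos t ^ (k + 1) / q) (γ.pos t ^ k * γ.weight t) t := by
        intro t _
        have := ((γ.hasDeriv t).fun_pow (k + 1)).div_const q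
        refine this.congr_deriv ?_
        have h1 : (k:ℂ) + 1 ≠ 0 := Nat.cast_add_one_ne_zero k
        have h2 : (2 * π * Complex.I : ℂ) ≠ 0 := by simp [Real.pi_ne_zero]
        simp only [hq, weight, Nat.add_sub_cancel, Nat.cast_add, Nat.cast_one]
        field_simp
      rw [integral_eq_sub_of_hasDerivAt hd ((cp.mul γ.continuous_weight).intervalIntegrable _ _),
        γ.closed, sub_self]
    have i2 := γ.continuous_cauchy_integrand cp
    have i3 : IntervalIntegrable (fun t => (γ.pos t ^ k * γ.weight t) • (1 : E →L[ℂ] E))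
        volume 0 (2 * π) :=
      ((cp.mul γ.continuous_weight).smul continuous_const).intervalIntegrable _ _
    have i4 : IntervalIntegrable (fun t => B * ((γ.pos t ^ k * γ.weight t) • γ.res 1 t))
        volume 0 (2 * π) := (continuous_const.mul i2).intervalIntegrable _ _
    rw [cauchy, integral_congr (fun t _ => e t), integral_add i3 i4,
      intervalIntegral.integral_smul_const, hz, zero_smul, zero_add, pow_succ', ← ih, cauchy]
    exact (ContinuousLinearMap.mul ℂ (E →L[ℂ] E) B).intervalIntegral_comp_comm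
      (i2.intervalIntegrable (μ := volume) 0 (2 * π))

lemma cauchy_poly (P : Polynomial ℂ) :
    γ.cauchy (fun t => P.eval (γ.pos t)) = Polynomial.aeval B P := by
  induction P using Polynomial.induction_on' with
  | add p q hp hq =>
    have cp : Continuous fun t => p.eval (γ.pos t) := p.continuous.comp γ.continuous_pos
    have cq : Continuous fun t => q.eval (γ.pos t) := q.continuous.comp γ.continuous_pos
    rw [map_add, ← hp, ← hq, cauchy, cauchy, cauchy,
      ← integral_add ((γ.continuous_cauchy_integrand cp).intervalIntegrable _ _)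
        ((γ.continuous_cauchy_integrand cq).intervalIntegrable _ _)]
    refine integral_congr fun t _ => ?_
    simp only [Polynomial.eval_add, add_mul, add_smul]
  | monomial k a =>
    rw [Polynomial.aeval_monomial, ← γ.cauchy_pow k, cauchy, cauchy, ← Algebra.smul_def,
      ← intervalIntegral.integral_smul]
    refine integral_congr fun t _ => ?_
    simp [Polynomial.eval_monomial, smul_smul, mul_assoc]

lemma commute_cauchy {F : E →L[ℂ] E} (hF : Commute B F) {f : ℝ → ℂ} (hf : Continuous f) :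
    Commute (γ.cauchy f) F := by
  have hi := (γ.continuous_cauchy_integrand hf).intervalIntegrable (μ := volume) 0 (2 * π)
  have l := ((ContinuousLinearMap.mul ℂ (E →L[ℂ] E)).flip F).intervalIntegral_comp_comm hi
  have r := (ContinuousLinearMap.mul ℂ (E →L[ℂ] E) F).intervalIntegral_comp_comm hi
  show γ.cauchy f * F = F * γ.cauchy f
  rw [cauchy, ← ContinuousLinearMap.mul_apply' ℂ (E →L[ℂ] E) F]
  refine l.symm.trans ?_
  rw [← r]
  refine integral_congr fun t _ => ?_
  simp [(γ.commute_res hF zero_le_one le_rfl t).eq]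

lemma inner_cauchy {f : ℝ → ℂ} (hf : Continuous f) (a b : E) :
    ⟪a, γ.cauchy f b⟫_ℂ =
      ∫ t in (0:ℝ)..(2 * π), f t * γ.weight t * ⟪a, γ.res 1 t b⟫_ℂ := by
  have hi := (γ.continuous_cauchy_integrand hf).intervalIntegrable (μ := volume) 0 (2 * π)
  have := ((innerSL ℂ a).comp (ContinuousLinearMap.apply ℂ E b)).intervalIntegral_comp_comm hi
  simpa [cauchy, inner_smul_right] using this.symm

/-- The double layer form. -/
def layer (t : ℝ) (a b : E) : ℂ :=
  γ.weight t * ⟪a, γ.res 1 t b⟫_ℂ + conj (γ.weight t * ⟪b, γ.res 1 t a⟫_ℂ)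

lemma layer_conj (t : ℝ) (a b : E) : conj (γ.layer t a b) = γ.layer t b a := by
  simp [layer, add_comm]

lemma layer_add_left (t : ℝ) (a a' b : E) :
    γ.layer t (a + a') b = γ.layer t a b + γ.layer t a' b := by
  simp [layer, inner_add_left, inner_add_right, mul_add]; ring

lemma layer_add_right (t : ℝ) (a b b' : E) :
    γ.layer t a (b + b') = γ.layer t a b + γ.layer t a b' := by
  simp [layer, inner_add_left, inner_add_right, mul_add]; ring

lemma layer_smul_right (t : ℝ) (a b : E) (z : ℂ) :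
    γ.layer t a (z • b) = z * γ.layer t a b := by
  simp [layer, inner_smul_left, inner_smul_right]; ring

lemma layer_smul_left (t : ℝ) (a b : E) (z : ℂ) :
    γ.layer t (z • a) b = conj z * γ.layer t a b := by
  simp [layer, inner_smul_left, inner_smul_right]; ring

/-- The quadratic form of the double layer. -/
def quad (t : ℝ) (a : E) : ℝ := (γ.layer t a a).re

lemma quad_nonneg (t : ℝ) (a : E) : 0 ≤ γ.quad t a := by
  set v := γ.res 1 t a with hv
  have hav : a = γ.pencil 1 t v := by
    have := congrArg (fun F : E →L[ℂ] E => F a) (γ.pencil_mul_res zero_le_one le_rfl t)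
    simpa [hv] using this.symm
  have h := γ.support t v
  have e : γ.quad t a = 2 * (γ.weight t * ⟪a, v⟫_ℂ).re := by
    simp only [quad, layer, ← hv, Complex.add_re, Complex.conj_re]; ring
  have e2 : conj (γ.weight t * ⟪a, v⟫_ℂ) =
      conj (γ.weight t) * (γ.pos t * (‖v‖ : ℂ) ^ 2 - ⟪v, B v⟫_ℂ) := by
    rw [map_mul, inner_conj_symm, hav]
    simp only [pencil, Complex.ofReal_one, one_smul, _root_.sub_apply,
      _root_.smul_apply, one_apply_eq_self, inner_sub_right,
      inner_smul_right, inner_self_eq_norm_sq_to_K]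
    rfl
  rw [e, ← Complex.conj_re, e2]
  exact mul_nonneg two_pos.le h

lemma quad_add_smul (t : ℝ) (a b : E) (z : ℂ) :
    γ.quad t (a + z • b) =
      γ.quad t a + 2 * (z * γ.layer t a b).re + ‖z‖ ^ 2 * γ.quad t b := by
  have hs : (γ.layer t (z • b) a).re = (z * γ.layer t a b).re := by
    rw [← γ.layer_conj t a (z • b), Complex.conj_re, layer_smul_right]
  have hb : γ.layer t (z • b) (z • b) = ((Complex.normSq z : ℝ) : ℂ) * γ.layer t b b := by
    rw [layer_smul_left, layer_smul_right, ← Complex.mul_conj]; ring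
  simp only [quad, layer_add_left, layer_add_right, Complex.add_re, hs, hb,
    Complex.re_ofReal_mul, Complex.normSq_eq_norm_sq]
  rw [layer_smul_right]
  ring

/-- Positivity of the Toeplitz kernel of a number of modulus at most one. -/
lemma kernel_nonneg (t : ℝ) {z : ℂ} (hz : ‖z‖ ≤ 1) (a : ℕ → E) (n : ℕ) :
    0 ≤ ∑ i ∈ range n,
      (γ.quad t (a i) + 2 * ∑ j ∈ range i, (z ^ (i - j) * γ.layer t (a i) (a j)).re) := by
  suffices h : ∀ n, ∃ b : E,
      (∀ w, γ.layer t w b = ∑ j ∈ range n, z ^ (n - j) * γ.layer t w (a j)) ∧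
      ‖z‖ ^ 0 * 0 ≤ ∑ i ∈ range n,
        (γ.quad t (a i) + 2 * ∑ j ∈ range i, (z ^ (i - j) * γ.layer t (a i) (a j)).re)
          - γ.quad t b by
    obtain ⟨b, -, hb⟩ := h n
    have := γ.quad_nonneg t b
    rw [mul_zero] at hb
    linarith
  intro n
  induction n with
  | zero =>
    refine ⟨0, fun w => by simp [layer], ?_⟩
    simp [quad, layer]
  | succ m ih =>
    obtain ⟨b, hb, hle⟩ := ih
    refine ⟨z • (a m + b), fun w => ?_, ?_⟩
    · rw [layer_smul_right, layer_add_right, hb, sum_range_succ, mul_add, mul_sum, add_comm]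
      congr 1
      · refine sum_congr rfl fun j hj => ?_
        rw [Nat.succ_sub (mem_range.mp hj).le, pow_succ]; ring
      · simp
    · have e1 : γ.quad t (z • (a m + b)) = ‖z‖ ^ 2 * γ.quad t (a m + b) := by
        have := γ.quad_add_smul t 0 (a m + b) z
        simpa [quad, layer] using this
      have e2 : γ.quad t (a m + b) =
          γ.quad t (a m) + 2 * (γ.layer t (a m) b).re + γ.quad t b := by
        have := γ.quad_add_smul t (a m) b 1
        simpa using this
      have e3 : (γ.layer t (a m) b).re =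
          ∑ j ∈ range m, (z ^ (m - j) * γ.layer t (a m) (a j)).re := by
        rw [hb, Complex.re_sum]
      have hq := γ.quad_nonneg t (a m + b)
      have hz2 : ‖z‖ ^ 2 ≤ 1 := pow_le_one₀ (norm_nonneg z) hz
      rw [sum_range_succ, e1, ← e3]
      rw [mul_zero] at hle ⊢
      nlinarith

lemma layer_pair_bound (t : ℝ) {z : ℂ} (hz : ‖z‖ ≤ 1) (a b : E) :
    |(z * γ.layer t a b).re| ≤ (γ.quad t a + γ.quad t b) / 2 := by
  have h1 := γ.quad_nonneg t (a + z • b)
  have h2 := γ.quad_nonneg t (a + (-z) • b)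
  rw [quad_add_smul] at h1 h2
  simp only [norm_neg, neg_mul, Complex.neg_re] at h2
  have hq := γ.quad_nonneg t b
  have hz2 : ‖z‖ ^ 2 ≤ 1 := pow_le_one₀ (norm_nonneg z) hz
  rw [abs_le]
  constructor <;> nlinarith

lemma continuous_layer (a b : E) : Continuous fun t => γ.layer t a b := by
  have := γ.continuous_res zero_le_one le_rfl
  have := γ.continuous_weight
  unfold layer
  fun_prop

lemma integral_re {f : ℝ → ℂ} (hf : Continuous f) :
    ∫ t in (0:ℝ)..(2 * π), (f t).re = (∫ t in (0:ℝ)..(2 * π), f t).re :=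
  Complex.reCLM.intervalIntegral_comp_comm (hf.intervalIntegrable (μ := volume) _ _)

lemma integral_layer {f : ℝ → ℂ} (hf : Continuous f) (a b : E) :
    ∫ t in (0:ℝ)..(2 * π), (f t * γ.layer t a b).re =
      (⟪a, γ.cauchy f b⟫_ℂ).re + (⟪b, γ.cauchy (fun t => conj (f t)) a⟫_ℂ).re := by
  have hfc : Continuous fun t => conj (f t) := Complex.continuous_conj.comp hf
  have := γ.continuous_res zero_le_one le_rfl
  have := γ.continuous_weight
  have hl := γ.continuous_layer a b
  rw [γ.inner_cauchy hf, γ.inner_cauchy hfc, ← integral_re (by fun_prop),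
    ← integral_re (by fun_prop),
    ← integral_add (Continuous.intervalIntegrable (by fun_prop) _ _)
      (Continuous.intervalIntegrable (by fun_prop) _ _)]
  refine integral_congr fun t _ => ?_
  simp only [layer, mul_add, Complex.add_re, Complex.mul_re, Complex.mul_im, Complex.conj_re,
    Complex.conj_im]
  ring

lemma integral_quad (a : E) : ∫ t in (0:ℝ)..(2 * π), γ.quad t a = 2 * ‖a‖ ^ 2 := by
  have h := γ.integral_layer (f := fun _ => (1:ℂ)) continuous_const a a
  simp only [one_mul, map_one, γ.cauchy_one, one_apply_eq_self] at h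
  rw [show (fun t => γ.quad t a) = fun t => (γ.layer t a a).re from rfl] at *
  rw [h, ← inner_self_eq_norm_sq (𝕜 := ℂ)]
  simp only [RCLike.re_to_complex]
  ring

theorem norm_aeval_le_two (Q : Polynomial ℂ) (hQ : ∀ t, ‖Q.eval (γ.pos t)‖ ≤ 1) :
    ‖Polynomial.aeval B Q‖ ≤ 2 := by
  set T := Polynomial.aeval B Q with hT
  set z : ℝ → ℂ := fun t => Q.eval (γ.pos t) with hzdef
  have hzc : Continuous z := Q.continuous.comp γ.continuous_pos
  have hTB : Commute B T := by
    have := (Commute.all (Polynomial.X : Polynomial ℂ) Q).map (Polynomial.aeval B)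
    simpa using this
  have hpow : ∀ k : ℕ, γ.cauchy (fun t => z t ^ k) = T ^ k := fun k => by
    rw [hT, ← map_pow, ← γ.cauchy_poly]
    simp [hzdef, Polynomial.eval_pow]
  let C : ℕ → E →L[ℂ] E := fun k =>
    ContinuousLinearMap.adjoint (γ.cauchy fun t => conj (z t ^ k))
  let J : ℕ → E → E → ℝ := fun k a b => ∫ t in (0:ℝ)..(2 * π), (z t ^ k * γ.layer t a b).re
  have hz1 : ∀ k t, ‖z t ^ k‖ ≤ 1 := fun k t => by
    rw [norm_pow]; exact pow_le_one₀ (norm_nonneg _) (hQ t)
  have hJc : ∀ k a b, Continuous fun t => (z t ^ k * γ.layer t a b).re := fun k a b =>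
    Complex.continuous_re.comp ((hzc.pow k).mul (γ.continuous_layer a b))
  have hqc : ∀ a, Continuous fun t => γ.quad t a := fun a =>
    Complex.continuous_re.comp (γ.continuous_layer a a)
  obtain ⟨M, hM⟩ := (isCompact_Icc (a := (0:ℝ)) (b := 2 * π)).exists_bound_of_continuousOn
    ((γ.continuous_weight).smul (γ.continuous_res zero_le_one le_rfl)).continuousOn
  refine norm_le_two_of_kernel T C J (M * |2 * π - 0|) ?_ ?_ ?_ ?_ ?_ ?_
  · intro a n
    have hin : ∀ i, Continuous fun t =>
        γ.quad t (a i) + 2 * ∑ j ∈ range i, (z t ^ (i - j) * γ.layer t (a i) (a j)).re := fun i =>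
      (hqc _).add (continuous_const.mul (continuous_finset_sum _ fun j _ => hJc _ _ _))
    have h0 : 0 ≤ ∫ t in (0:ℝ)..(2 * π), ∑ i ∈ range n,
        (γ.quad t (a i) + 2 * ∑ j ∈ range i, (z t ^ (i - j) * γ.layer t (a i) (a j)).re) :=
      integral_nonneg (by positivity) fun t _ => γ.kernel_nonneg t (hQ t) a n
    rw [intervalIntegral.integral_finset_sum fun i _ => (hin i).intervalIntegrable _ _] at h0
    refine h0.trans (le_of_eq (sum_congr rfl fun i _ => ?_))
    have i5 : IntervalIntegrable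
        (fun t => 2 * ∑ j ∈ range i, (z t ^ (i - j) * γ.layer t (a i) (a j)).re)
        volume 0 (2 * π) :=
      (continuous_const.mul (continuous_finset_sum _ fun j _ => hJc _ _ _)).intervalIntegrable _ _
    rw [integral_add ((hqc _).intervalIntegrable _ _) i5,
      γ.integral_quad, intervalIntegral.integral_const_mul,
      intervalIntegral.integral_finset_sum fun j _ => (hJc _ _ _).intervalIntegrable _ _]
  · intro k r s a b
    show ∫ t in (0:ℝ)..(2 * π), _ = _ * ∫ t in (0:ℝ)..(2 * π), _
    rw [← intervalIntegral.integral_const_mul]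
    refine integral_congr fun t _ => ?_
    simp only [layer_smul_left, layer_smul_right, Complex.conj_ofReal]
    rw [← Complex.re_ofReal_mul]
    push_cast
    ring_nf
  · intro k a b
    have h : ‖∫ t in (0:ℝ)..(2 * π), (z t ^ k * γ.layer t a b).re‖ ≤
        ∫ t in (0:ℝ)..(2 * π), (γ.quad t a + γ.quad t b) / 2 :=
      norm_integral_le_of_norm_le (by positivity)
        (Filter.Eventually.of_forall fun t _ => γ.layer_pair_bound t (hz1 k t) a b)
        ((((hqc a).add (hqc b)).div_const 2).intervalIntegrable _ _)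
    rw [intervalIntegral.integral_div,
      integral_add ((hqc a).intervalIntegrable _ _) ((hqc b).intervalIntegrable _ _),
      γ.integral_quad, γ.integral_quad, Real.norm_eq_abs] at h
    show |∫ t in (0:ℝ)..(2 * π), (z t ^ k * γ.layer t a b).re| ≤ _
    linarith
  · intro k a b _
    show ∫ t in (0:ℝ)..(2 * π), _ = _
    rw [γ.integral_layer (f := fun t => z t ^ k) (hzc.pow k), hpow]
    simp only [C, RCLike.re_to_complex, ContinuousLinearMap.adjoint_inner_right]
    rw [← Complex.conj_re ⟪b, _⟫_ℂ, inner_conj_symm]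
  · intro k v
    have hc : Continuous fun t => conj (z t ^ k) := Complex.continuous_conj.comp (hzc.pow k)
    have h := congrArg ContinuousLinearMap.adjoint (γ.commute_cauchy hTB hc).eq
    simp only [ContinuousLinearMap.mul_def, ContinuousLinearMap.adjoint_comp] at h
    exact (congrArg (fun F : E →L[ℂ] E => F v) h).symm
  · intro k
    rw [← hpow, cauchy]
    refine norm_integral_le_of_norm_le_const fun t ht => ?_
    have ht' : t ∈ Set.Icc (0:ℝ) (2 * π) := by
      rw [Set.uIoc_of_le (by positivity)] at ht; exact Set.Ioc_subset_Icc_self ht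
    rw [mul_smul, norm_smul]
    exact (mul_le_of_le_one_left (norm_nonneg _) (hz1 k t)).trans (hM t ht')

end Contour

end Vale.Agent.P123
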