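import Mathlib

/-!
The positivity argument behind the sharp constant two.

A family of sesquilinear moments `J` is given, positive as a Toeplitz kernel, of total mass two,
and equal to a power of `T` plus a term commuting with the adjoint of `T`. A geometrically weighted
test sequence built from a pair of singular vectors shows that the norm of `T` is at most two.
-/

noncomputable section

open Finset
open scoped InnerProductSpace

namespace Vale.Agent.P123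

variable {E : Type*} [NormedAddCommGroup E] [InnerProductSpace ℂ E] [FiniteDimensional ℂ E]

/-- A pair of singular vectors for the norm. -/
lemma exists_singular_pair (T : E →L[ℂ] E) (hT : 0 < ‖T‖) :
    ∃ x y : E, ‖x‖ = 1 ∧ ‖y‖ = 1 ∧ T x = (‖T‖ : ℂ) • y ∧
      ContinuousLinearMap.adjoint T y = (‖T‖ : ℂ) • x := by
  have : ProperSpace E := FiniteDimensional.proper ℂ E
  obtain ⟨x, hx, hmax⟩ := (isCompact_closedBall (0 : E) 1).exists_isMaxOn
    ⟨0, by simp⟩ (T.continuous.norm).continuousOn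
  rw [mem_closedBall_zero_iff] at hx
  have hle : ‖T‖ ≤ ‖T x‖ := by
    refine T.opNorm_le_bound (norm_nonneg _) fun v => ?_
    rcases eq_or_ne v 0 with rfl | hv
    · simp
    · have hv' : 0 < ‖v‖ := norm_pos_iff.mpr hv
      have h1 : ‖((‖v‖⁻¹ : ℝ) : ℂ) • v‖ = 1 := by
        simp [norm_smul, hv'.ne']
      have h2 := hmax (mem_closedBall_zero_iff.mpr h1.le)
      simp only [Set.mem_ofPred_eq, map_smul, norm_smul, Complex.norm_real, norm_inv,
        Real.norm_eq_abs, abs_of_pos hv'] at h2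
      calc ‖T v‖ = ‖v‖ * (‖v‖⁻¹ * ‖T v‖) := by field_simp
        _ ≤ ‖v‖ * ‖T x‖ := mul_le_mul_of_nonneg_left h2 hv'.le
        _ = ‖T x‖ * ‖v‖ := mul_comm _ _
  have hTx : ‖T x‖ = ‖T‖ := by
    refine le_antisymm ((T.le_opNorm x).trans ?_) hle
    exact mul_le_of_le_one_right hT.le hx
  have hx1 : ‖x‖ = 1 := by
    refine le_antisymm hx ?_
    by_contra h
    have h' : ‖x‖ < 1 := not_le.mp h
    have := T.le_opNorm x
    rw [hTx] at this
    nlinarith
  have hK : ((‖T‖ : ℝ) : ℂ) ≠ 0 := by exact_mod_cast hT.ne'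
  set y : E := ((‖T‖ : ℝ) : ℂ)⁻¹ • T x with hy
  have hy1 : ‖y‖ = 1 := by
    simp [hy, norm_smul, hTx, hT.ne']
  have hxy : T x = (‖T‖ : ℂ) • y := by rw [hy, smul_smul, mul_inv_cancel₀ hK, one_smul]
  refine ⟨x, y, hx1, hy1, hxy, ?_⟩
  set w := ContinuousLinearMap.adjoint T y with hw
  have hwn : ‖w‖ ≤ ‖T‖ := by
    have := (ContinuousLinearMap.adjoint T).le_opNorm y
    rwa [LinearIsometryEquiv.norm_map, hy1, mul_one] at this
  have hre : RCLike.re ⟪w, (‖T‖ : ℂ) • x⟫_ℂ = ‖T‖ ^ 2 := by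
    rw [hw, ContinuousLinearMap.adjoint_inner_left, map_smul, hxy, smul_smul, inner_smul_right,
      inner_self_eq_norm_sq_to_K, hy1]
    simp [pow_two]
  have h2 := norm_sub_sq (𝕜 := ℂ) w ((‖T‖ : ℂ) • x)
  rw [hre] at h2
  have h3 : ‖(‖T‖ : ℂ) • x‖ = ‖T‖ := by simp [norm_smul, hx1]
  rw [h3] at h2
  have h4 : ‖w - (‖T‖ : ℂ) • x‖ = 0 := by
    nlinarith [norm_nonneg (w - (‖T‖ : ℂ) • x), norm_nonneg w]
  exact sub_eq_zero.mp (norm_eq_zero.mp h4)

lemma sum_geom_inv (K : ℝ) (hK : K ≠ 0) (N : ℕ) :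
    (K - 1) * ∑ i ∈ range N, (K⁻¹) ^ (i + 1) = 1 - (K⁻¹) ^ N := by
  induction N with
  | zero => simp
  | succ n ih =>
    rw [sum_range_succ, mul_add, ih, pow_succ]
    field_simp
    ring

lemma sum_sym_bound (w n : ℕ → ℝ) (N : ℕ) :
    ∑ i ∈ range N, (2 * w i ^ 2 * n i + 2 * ∑ j ∈ range i, w i * w j * (n i + n j))
      = 2 * (∑ i ∈ range N, w i) * ∑ i ∈ range N, w i * n i := by
  induction N with
  | zero => simp
  | succ m ih =>
    have : ∑ j ∈ range m, w m * w j * (n m + n j)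
        = w m * n m * (∑ j ∈ range m, w j) + w m * ∑ j ∈ range m, w j * n j := by
      rw [mul_sum, mul_sum, ← sum_add_distrib]
      exact sum_congr rfl fun j _ => by ring
    rw [sum_range_succ, ih, sum_range_succ w, sum_range_succ (fun i => w i * n i), this]
    ring

/-- The kernel argument: the norm of `T` is at most two. -/
theorem norm_le_two_of_kernel (T : E →L[ℂ] E) (C : ℕ → E →L[ℂ] E) (J : ℕ → E → E → ℝ) (L : ℝ)
    (hpos : ∀ (a : ℕ → E) (n : ℕ),
      0 ≤ ∑ i ∈ range n, (2 * ‖a i‖ ^ 2 + 2 * ∑ j ∈ range i, J (i - j) (a i) (a j)))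
    (hsmul : ∀ (k : ℕ) (r s : ℝ) (a b : E),
      J k ((r : ℂ) • a) ((s : ℂ) • b) = r * s * J k a b)
    (hbound : ∀ (k : ℕ) (a b : E), |J k a b| ≤ ‖a‖ ^ 2 + ‖b‖ ^ 2)
    (hform : ∀ (k : ℕ) (a b : E), 1 ≤ k →
      J k a b = RCLike.re ⟪a, (T ^ k) b⟫_ℂ + RCLike.re ⟪a, C k b⟫_ℂ)
    (hcomm : ∀ (k : ℕ) (v : E),
      C k (ContinuousLinearMap.adjoint T v) = ContinuousLinearMap.adjoint T (C k v))
    (hL : ∀ k : ℕ, ‖T ^ k‖ ≤ L) : ‖T‖ ≤ 2 := by
  by_contra hcon
  have hK : 2 < ‖T‖ := not_le.mp hcon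
  obtain ⟨x, y, hx, hy, hxy, hyx⟩ := exists_singular_pair T (by linarith)
  generalize hKdef : ‖T‖ = K at hK hxy hyx
  have hK0 : (0:ℝ) < K := by linarith
  have hK1 : (0:ℝ) < K - 1 := by linarith
  set ρ : ℝ := K⁻¹ with hρ
  have hρ0 : 0 ≤ ρ := by positivity
  let v : ℕ → E := fun m => (T ^ m) y
  let n : ℕ → ℝ := fun m => ‖v m‖ ^ 2
  let c : ℕ → ℝ := fun m => RCLike.re ⟪v m, C m y⟫_ℂ
  have hv0 : v 0 = y := by simp [v]
  have hTx : ∀ m : ℕ, (T ^ (m + 1)) x = (K : ℂ) • v m := by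
    intro m
    rw [pow_succ, ContinuousLinearMap.mul_def, ContinuousLinearMap.comp_apply, hxy, map_smul]
  have hvs : ∀ m : ℕ, T (v m) = v (m + 1) := by
    intro m
    show T ((T ^ m) y) = (T ^ (m + 1)) y
    rw [pow_succ', ContinuousLinearMap.mul_def, ContinuousLinearMap.comp_apply]
  have inner_self_re : ∀ w : E, RCLike.re ⟪w, w⟫_ℂ = ‖w‖ ^ 2 := fun w => by
    rw [inner_self_eq_norm_sq]
  -- the first row of the kernel
  have hCx : ∀ m : ℕ, RCLike.re ⟪v m, C (m + 1) x⟫_ℂ = ρ * c (m + 1) := by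
    intro m
    have hKc : (K : ℂ) ≠ 0 := by exact_mod_cast hK0.ne'
    have e : x = (K : ℂ)⁻¹ • ContinuousLinearMap.adjoint T y := by
      rw [hyx, smul_smul, inv_mul_cancel₀ hKc, one_smul]
    rw [e, map_smul, hcomm, inner_smul_right, ContinuousLinearMap.adjoint_inner_right, hvs]
    simp [c, hρ]
  have hJx : ∀ m : ℕ, J (m + 1) (v m) x = K * n m + ρ * c (m + 1) := by
    intro m
    rw [hform _ _ _ (by omega), hCx m, hTx m, inner_smul_right]
    simp [n, ← Complex.ofReal_pow]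
  have hJy : ∀ m : ℕ, 1 ≤ m → J m (v m) y = n m + c m := by
    intro m hm
    rw [hform _ _ _ hm]
    show RCLike.re ⟪v m, v m⟫_ℂ + _ = _
    rw [inner_self_re]
  have hn0 : n 0 = 1 := by simp [n, hv0, hy]
  -- the test sequence
  let a : ℕ → E := fun i => Nat.casesOn i x (fun m => ((-(ρ ^ m) : ℝ) : ℂ) • v m)
  have ha0 : a 0 = x := rfl
  have ha : ∀ m : ℕ, a (m + 1) = ((-(ρ ^ m) : ℝ) : ℂ) • v m := fun m => rfl
  have hna : ∀ m : ℕ, ‖a (m + 1)‖ ^ 2 = (ρ ^ m) ^ 2 * n m := by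
    intro m
    rw [ha, norm_smul, Complex.norm_real, Real.norm_eq_abs, mul_pow, sq_abs, neg_sq]
  have hxc : ((1 : ℝ) : ℂ) • x = x := by simp
  have cross : ∀ m : ℕ, J (m + 1) (a (m + 1)) (a 0) = -(ρ ^ m) * J (m + 1) (v m) x := by
    intro m
    conv_lhs => rw [ha, ha0, ← hxc]
    rw [hsmul]; ring
  have selfJ : ∀ k i j : ℕ, J k (a (i + 1)) (a (j + 1)) = ρ ^ i * ρ ^ j * J k (v i) (v j) := by
    intro k i j
    rw [ha, ha, hsmul]; ring
  have key : ∀ N : ℕ, 2 * (K - 2) ≤ (4 * L ^ 2 + 2) * ρ ^ (N + 1) := by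
    intro N
    have h0 := hpos a (N + 2)
    rw [sum_range_succ', sum_range_zero, ha0, hx, sum_range_succ'] at h0
    -- rewrite the terms
    have first : 2 * ‖a (0 + 1)‖ ^ 2 + 2 * ∑ j ∈ range (0 + 1), J (0 + 1 - j) (a (0 + 1)) (a j)
        = 2 - 2 * (K + ρ * c 1) := by
      rw [hna, sum_range_one, Nat.sub_zero, cross, hJx, hn0, pow_zero]
      ring
    have rest : ∀ i : ℕ,
        2 * ‖a (i + 1 + 1)‖ ^ 2 + 2 * ∑ j ∈ range (i + 1 + 1), J (i + 1 + 1 - j) (a (i + 1 + 1)) (a j)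
          = (2 * (ρ ^ (i + 1)) ^ 2 * n (i + 1) +
              2 * ∑ j ∈ range i, ρ ^ (i + 1) * ρ ^ (j + 1) * J (i - j) (v (i + 1)) (v (j + 1)))
            + 2 * (1 - K) * (ρ ^ (i + 1) * n (i + 1))
            + 2 * (ρ ^ (i + 1) * c (i + 1) - ρ ^ (i + 1 + 1) * c (i + 1 + 1)) := by
      intro i
      rw [sum_range_succ', Nat.sub_zero, cross, hJx, hna, sum_range_succ']
      simp only [Nat.add_sub_add_right, Nat.sub_zero, selfJ]
      rw [hv0, hJy (i + 1) (by omega), pow_zero]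
      ring
    rw [first] at h0
    rw [sum_congr rfl fun i _ => rest i, sum_add_distrib, sum_add_distrib,
      ← mul_sum, ← mul_sum, sum_range_sub' (fun i => ρ ^ (i + 1) * c (i + 1))] at h0
    have hB : ∑ i ∈ range N, (2 * (ρ ^ (i + 1)) ^ 2 * n (i + 1) +
          2 * ∑ j ∈ range i, ρ ^ (i + 1) * ρ ^ (j + 1) * J (i - j) (v (i + 1)) (v (j + 1)))
        ≤ 2 * (∑ i ∈ range N, ρ ^ (i + 1)) * ∑ i ∈ range N, ρ ^ (i + 1) * n (i + 1) := by
      rw [← sum_sym_bound]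
      gcongr with i _ j _
      exact (abs_le.mp (hbound _ _ _)).2
    set G := ∑ i ∈ range N, ρ ^ (i + 1) with hG
    set S := ∑ i ∈ range N, ρ ^ (i + 1) * n (i + 1) with hS
    have hS0 : 0 ≤ S := sum_nonneg fun i _ => mul_nonneg (pow_nonneg hρ0 _) (sq_nonneg _)
    have hG1 : G ≤ 1 := by
      have := sum_geom_inv K hK0.ne' N
      rw [← hρ] at this
      have hp : 0 ≤ ρ ^ N := pow_nonneg hρ0 N
      have hG0 : 0 ≤ G := sum_nonneg fun i _ => pow_nonneg hρ0 _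
      nlinarith
    have hGS : G * S ≤ (K - 1) * S := mul_le_mul_of_nonneg_right (by linarith) hS0
    have hnb : ∀ m : ℕ, n m ≤ L ^ 2 := by
      intro m
      refine pow_le_pow_left₀ (norm_nonneg _) ?_ 2
      calc ‖v m‖ ≤ ‖T ^ m‖ * ‖y‖ := (T ^ m).le_opNorm y
        _ ≤ L := by rw [hy, mul_one]; exact hL m
    have hc : -c (N + 1) ≤ 2 * L ^ 2 + 1 := by
      have e := hJy (N + 1) (by omega)
      have b := (abs_le.mp (hbound (N + 1) (v (N + 1)) y)).1
      have := hnb (N + 1)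
      have hn : ‖v (N + 1)‖ ^ 2 = n (N + 1) := rfl
      rw [hy, hn] at b
      linarith
    have hc' := mul_le_mul_of_nonneg_left hc (pow_nonneg hρ0 (N + 1))
    simp only [zero_add, pow_one, mul_zero, add_zero] at h0
    linarith
  have hρ1 : ρ < 1 := inv_lt_one_of_one_lt₀ (by linarith)
  have hlim : Filter.Tendsto (fun N : ℕ => (4 * L ^ 2 + 2) * ρ ^ (N + 1)) Filter.atTop
      (nhds ((4 * L ^ 2 + 2) * 0)) :=
    (((tendsto_pow_atTop_nhds_zero_of_lt_one hρ0 hρ1)).comp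
      (Filter.tendsto_add_atTop_nat 1)).const_mul _
  rw [mul_zero] at hlim
  have := ge_of_tendsto' hlim key
  linarith

end Vale.Agent.P123
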