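import Vale.Agent.P123.Curve

/-!
The numerical range bound with constant two, in finite and then in arbitrary dimension.
-/

noncomputable section

open Finset
open scoped InnerProductSpace Real ComplexConjugate

set_option linter.unusedSectionVars false

namespace Vale.Agent.P123

variable {E : Type*} [NormedAddCommGroup E] [InnerProductSpace ℂ E] [FiniteDimensional ℂ E]

lemma rdot_continuous (a : ℂ) : Continuous (rdot a) := by unfold rdot; fun_prop

lemma exists_separating {W : Set ℂ} (hc : Convex ℝ W) (hk : IsCompact W) (h0 : (0:ℂ) ∈ W)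
    {z : ℂ} (hz : z ∉ W) : ∃ a : ℂ, (∀ w ∈ W, rdot a w < 1) ∧ 1 < rdot a z := by
  obtain ⟨f, u, h1, h2⟩ := geometric_hahn_banach_closed_point hc hk.isClosed hz
  have hu : 0 < u := by simpa using h1 0 h0
  refine ⟨((f 1 / u : ℝ) : ℂ) + ((f Complex.I / u : ℝ) : ℂ) * Complex.I, ?_⟩
  have e : ∀ w : ℂ,
      rdot (((f 1 / u : ℝ) : ℂ) + ((f Complex.I / u : ℝ) : ℂ) * Complex.I) w = f w / u := by
    intro w
    have hw : w = w.re • (1:ℂ) + w.im • Complex.I := by
      simp [Complex.real_smul, Complex.re_add_im]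
    conv_rhs => rw [hw, map_add, map_smul, map_smul]
    simp [rdot, Complex.mul_re, Complex.mul_im]
    ring
  refine ⟨fun w hw => ?_, ?_⟩
  · rw [e, div_lt_one hu]; exact h1 w hw
  · rw [e, one_lt_div hu]; exact h2

/-- A finite family of half planes cutting out a neighbourhood of a convex compact set. -/
lemma exists_halfplanes {W : Set ℂ} (hc : Convex ℝ W) (hk : IsCompact W) (h0 : (0:ℂ) ∈ W)
    {U : Set ℂ} (hU : IsOpen U) (hWU : W ⊆ U) :
    ∃ (A : Finset ℂ) (m : ℕ), (∀ t, 0 < circ A m t) ∧ (∀ w ∈ W, gauge' A m w < 1) ∧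
      ∀ z, (∀ a ∈ A, rdot a z ≤ 1) → z ∈ U := by
  classical
  obtain ⟨R₀, hR₀⟩ := hk.exists_bound_of_continuousOn continuous_id.continuousOn
  set R : ℝ := |R₀| + 1 with hR
  have hRp : 0 < R := by positivity
  set K : Set ℂ := Metric.closedBall 0 (2 * R) \ U with hK
  have hKc : IsCompact K := (isCompact_closedBall _ _).diff hU
  have hcover : K ⊆ ⋃ a ∈ {a : ℂ | ∀ w ∈ W, rdot a w < 1}, {z | 1 < rdot a z} := by
    intro z hz
    obtain ⟨a, ha, haz⟩ := exists_separating hc hk h0 fun h => hz.2 (hWU h)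
    exact Set.mem_biUnion (x := a) ha haz
  obtain ⟨S, hS, hSf, hSc⟩ := hKc.elim_finite_subcover_image
    (fun a _ => isOpen_lt continuous_const (rdot_continuous a)) hcover
  let four : Finset ℂ :=
    {((R⁻¹ : ℝ) : ℂ), -((R⁻¹ : ℝ) : ℂ), ((R⁻¹ : ℝ) : ℂ) * Complex.I,
      -(((R⁻¹ : ℝ) : ℂ) * Complex.I)}
  set A := hSf.toFinset ∪ four with hA
  have f1 : ∀ z, rdot ((R⁻¹ : ℝ) : ℂ) z = z.re / R := by intro z; simp [rdot]; ring
  have f2 : ∀ z, rdot (-((R⁻¹ : ℝ) : ℂ)) z = -z.re / R := by intro z; simp [rdot]; ring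
  have f3 : ∀ z, rdot (((R⁻¹ : ℝ) : ℂ) * Complex.I) z = z.im / R := by
    intro z; simp [rdot]; ring
  have f4 : ∀ z, rdot (-(((R⁻¹ : ℝ) : ℂ) * Complex.I)) z = -z.im / R := by
    intro z; simp [rdot]; ring
  have hAW : ∀ a ∈ A, ∀ w ∈ W, rdot a w < 1 := by
    intro a ha w hw
    rcases Finset.mem_union.mp ha with h | h
    · exact hS (hSf.mem_toFinset.mp h) w hw
    · have hb : ‖w‖ ≤ R₀ := hR₀ w hw
      have h1 := abs_le.mp ((Complex.abs_re_le_norm w).trans hb)
      have h2 := abs_le.mp ((Complex.abs_im_le_norm w).trans hb)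
      have := le_abs_self R₀
      simp only [four, Finset.mem_insert, Finset.mem_singleton] at h
      rcases h with rfl | rfl | rfl | rfl <;> simp only [f1, f2, f3, f4] <;>
        rw [div_lt_one hRp] <;> linarith
  have hcpos : ∀ m t, 0 < circ A m t := by
    intro m t
    set e := Complex.exp (t * Complex.I) with he
    have hne : ∃ a ∈ A, 0 < rdot a e := by
      by_contra h
      push Not at h
      have m1 := h _ (Finset.mem_union_right _ (by simp [four] : ((R⁻¹ : ℝ) : ℂ) ∈ four))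
      have m2 := h _ (Finset.mem_union_right _ (by simp [four] : -((R⁻¹ : ℝ) : ℂ) ∈ four))
      have m3 := h _ (Finset.mem_union_right _
        (by simp [four] : ((R⁻¹ : ℝ) : ℂ) * Complex.I ∈ four))
      have m4 := h _ (Finset.mem_union_right _
        (by simp [four] : -(((R⁻¹ : ℝ) : ℂ) * Complex.I) ∈ four))
      rw [f1, div_le_iff₀ hRp] at m1
      rw [f2, div_le_iff₀ hRp] at m2
      rw [f3, div_le_iff₀ hRp] at m3
      rw [f4, div_le_iff₀ hRp] at m4
      have : e = 0 := Complex.ext (by simp; linarith) (by simp; linarith)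
      exact Complex.exp_ne_zero _ this
    obtain ⟨a, ha, hpos⟩ := hne
    refine Finset.sum_pos' (fun b _ => ppow_nonneg _ _) ⟨a, ha, ?_⟩
    rw [ppow, max_eq_left hpos.le]; positivity
  let O : ℕ → Set ℂ := fun m => {w | gauge' A m w < 1} ∩ {w | ∀ a ∈ A, rdot a w < 1}
  have hO : ∀ m, IsOpen (O m) := by
    intro m
    refine (isOpen_lt ?_ continuous_const).inter ?_
    · exact continuous_finsetSum _ fun a _ => (continuous_ppow _).comp (rdot_continuous a)
    · rw [show {w : ℂ | ∀ a ∈ A, rdot a w < 1} = ⋂ a ∈ A, {w | rdot a w < 1} by ext; simp]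
      exact isOpen_biInter_finset fun a _ => isOpen_lt (rdot_continuous a) continuous_const
  have hOW : W ⊆ ⋃ m, O m := by
    intro w hw
    have ht : Filter.Tendsto (fun m => gauge' A m w) Filter.atTop
        (nhds (∑ _a ∈ A, (0:ℝ))) := by
      refine tendsto_finsetSum _ fun a ha => ?_
      exact (tendsto_pow_atTop_nhds_zero_of_lt_one (le_max_right _ _)
        (max_lt (hAW a ha w hw) one_pos)).comp (Filter.tendsto_add_atTop_nat 2)
    rw [Finset.sum_const_zero] at ht
    obtain ⟨m, hm⟩ := (ht.eventually_lt_const one_pos).exists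
    exact Set.mem_iUnion.mpr ⟨m, hm, fun a ha => hAW a ha w hw⟩
  have hdir : Directed (· ⊆ ·) O := by
    refine (monotone_nat_of_le_succ fun m => ?_).directed_le
    rintro w ⟨h1, h2⟩
    refine ⟨show gauge' A (m + 1) w < 1 from lt_of_le_of_lt ?_ h1, h2⟩
    refine Finset.sum_le_sum fun a ha => ?_
    exact pow_le_pow_of_le_one (le_max_right _ _) (max_le (h2 a ha).le zero_le_one) (by omega)
  obtain ⟨m, hm⟩ := hk.elim_directed_cover O hO hOW hdir
  refine ⟨A, m, hcpos m, fun w hw => (hm hw).1, fun z hz => ?_⟩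
  by_contra hzU
  have hzb : z ∈ Metric.closedBall (0:ℂ) (2 * R) := by
    have m1 := hz _ (Finset.mem_union_right _ (by simp [four] : ((R⁻¹ : ℝ) : ℂ) ∈ four))
    have m2 := hz _ (Finset.mem_union_right _ (by simp [four] : -((R⁻¹ : ℝ) : ℂ) ∈ four))
    have m3 := hz _ (Finset.mem_union_right _
      (by simp [four] : ((R⁻¹ : ℝ) : ℂ) * Complex.I ∈ four))
    have m4 := hz _ (Finset.mem_union_right _
      (by simp [four] : -(((R⁻¹ : ℝ) : ℂ) * Complex.I) ∈ four))
    rw [f1, div_le_one hRp] at m1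
    rw [f2, div_le_one hRp] at m2
    rw [f3, div_le_one hRp] at m3
    rw [f4, div_le_one hRp] at m4
    rw [mem_closedBall_zero_iff]
    have h1 : |z.re| ≤ R := abs_le.mpr ⟨by linarith, m1⟩
    have h2 : |z.im| ≤ R := abs_le.mpr ⟨by linarith, m3⟩
    linarith [Complex.norm_le_abs_re_add_abs_im z]
  obtain ⟨a, ha, haz⟩ := Set.mem_iUnion₂.mp (hSc (show z ∈ K from ⟨hzb, hzU⟩))
  exact (not_le.mpr haz) (hz a (Finset.mem_union_left _ (hSf.mem_toFinset.mpr ha)))

/-- The bound in finite dimension, when zero lies in the numerical range. -/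
lemma norm_aeval_le_two_of_zero_mem (B : E →L[ℂ] E) (h0 : (0:ℂ) ∈ numRange B)
    (Q : Polynomial ℂ) (hQ : ∀ w ∈ numRange B, ‖Q.eval w‖ < 1) :
    ‖Polynomial.aeval B Q‖ ≤ 2 := by
  obtain ⟨A, m, hS, hW, hU⟩ := exists_halfplanes (convex_numRange B) (isCompact_numRange B) h0
    (isOpen_lt Q.continuous.norm continuous_const) hQ
  exact (contour B hS hW).norm_aeval_le_two Q fun t =>
    (hU _ fun a ha => rdot_point_le hS t ha).le

/-- The bound in finite dimension. -/
theorem norm_aeval_le_finite (B : E →L[ℂ] E) (P : Polynomial ℂ) (M : ℝ)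
    (hM : ∀ u : E, ‖u‖ = 1 → ‖P.eval ⟪u, B u⟫_ℂ‖ ≤ M) {v : E} (hv : ‖v‖ = 1) :
    ‖Polynomial.aeval B P‖ ≤ 2 * M := by
  have hM0 : 0 ≤ M := (norm_nonneg _).trans (hM v hv)
  refine le_of_forall_pos_le_add fun ε hε => ?_
  set M' : ℝ := M + ε / 2 with hM'
  have hp : 0 < M' := by positivity
  set w₀ := ⟪v, B v⟫_ℂ with hw₀
  set B₀ : E →L[ℂ] E := B - algebraMap ℂ (E →L[ℂ] E) w₀ with hB₀
  set Q : Polynomial ℂ :=
    Polynomial.C ((M'⁻¹ : ℝ) : ℂ) * P.comp (Polynomial.X + Polynomial.C w₀) with hQd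
  have hshift : ∀ u : E, ‖u‖ = 1 → ⟪u, B₀ u⟫_ℂ = ⟪u, B u⟫_ℂ - w₀ := by
    intro u hu
    rw [hB₀, Algebra.algebraMap_eq_smul_one]
    simp [inner_sub_right, inner_smul_right, inner_self_eq_norm_sq_to_K, hu]
  have h0 : (0:ℂ) ∈ numRange B₀ := by
    have := mem_numRange (B := B₀) hv
    rwa [hshift v hv, sub_self] at this
  have hQ : ∀ w ∈ numRange B₀, ‖Q.eval w‖ < 1 := by
    rintro _ ⟨u, hu, rfl⟩
    rw [mem_sphere_zero_iff_norm] at hu
    simp only [hQd, hshift u hu, Polynomial.eval_mul, Polynomial.eval_C, Polynomial.eval_comp,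
      Polynomial.eval_add, Polynomial.eval_X, sub_add_cancel, norm_mul, Complex.norm_real,
      Real.norm_eq_abs, abs_of_pos (inv_pos.mpr hp)]
    rw [inv_mul_lt_one₀ hp]
    linarith [hM u hu]
  have key := norm_aeval_le_two_of_zero_mem B₀ h0 Q hQ
  have e : Polynomial.aeval B₀ Q = ((M'⁻¹ : ℝ) : ℂ) • Polynomial.aeval B P := by
    rw [hQd, map_mul, Polynomial.aeval_C, Polynomial.aeval_comp, map_add, Polynomial.aeval_X,
      Polynomial.aeval_C, hB₀, sub_add_cancel, Algebra.smul_def]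
  rw [e, norm_smul, Complex.norm_real, Real.norm_eq_abs, abs_of_pos (inv_pos.mpr hp),
    inv_mul_le_iff₀ hp] at key
  linarith

variable {H : Type*} [NormedAddCommGroup H] [InnerProductSpace ℂ H]

/-- Crouzeix's inequality with constant two, in every complex inner product space. -/
theorem norm_aeval_le_two_mul (A : H →L[ℂ] H) (P : Polynomial ℂ) (M : ℝ)
    (hM : ∀ u : H, ‖u‖ = 1 → ‖P.eval ⟪u, A u⟫_ℂ‖ ≤ M) (hM0 : 0 ≤ M) :
    ‖Polynomial.aeval A P‖ ≤ 2 * M := by
  refine ContinuousLinearMap.opNorm_le_bound _ (by positivity) fun x => ?_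
  rcases eq_or_ne x 0 with rfl | hx
  · simp
  let S : Submodule ℂ H :=
    Submodule.span ℂ (Set.range fun i : Fin (P.natDegree + 1) => (A ^ (i:ℕ)) x)
  have : FiniteDimensional ℂ S := FiniteDimensional.span_of_finite ℂ (Set.finite_range _)
  let B : S →L[ℂ] S := S.orthogonalProjectionOnto.comp (A.comp S.subtypeL)
  have hpow : ∀ i ≤ P.natDegree, (A ^ i) x ∈ S := fun i hi =>
    Submodule.subset_span ⟨⟨i, by omega⟩, rfl⟩
  have hxS : x ∈ S := by simpa using hpow 0 (Nat.zero_le _)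
  set x' : S := ⟨x, hxS⟩ with hx'
  have hB : ∀ i ≤ P.natDegree, ((B ^ i) x' : H) = (A ^ i) x := by
    intro i
    induction i with
    | zero => intro _; simp [hx']
    | succ j ih =>
      intro hj
      rw [pow_succ', pow_succ', ContinuousLinearMap.mul_def, ContinuousLinearMap.mul_def,
        ContinuousLinearMap.comp_apply, ContinuousLinearMap.comp_apply]
      have h := ih (by omega)
      show (S.orthogonalProjectionOnto (A ((B ^ j) x' : H)) : H) = A ((A ^ j) x)
      rw [h]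
      have hm : A ((A ^ j) x) ∈ S := by
        have := hpow (j + 1) hj
        rwa [pow_succ', ContinuousLinearMap.mul_def, ContinuousLinearMap.comp_apply] at this
      exact Submodule.starProjection_eq_self_iff.mpr hm
  have hBu : ∀ u : S, ⟪u, B u⟫_ℂ = ⟪(u : H), A (u : H)⟫_ℂ := by
    intro u
    show ⟪u, S.orthogonalProjectionOnto (A (u : H))⟫_ℂ = _
    exact S.inner_orthogonalProjectionOnto_eq_of_mem_left u _
  have hxn : 0 < ‖x'‖ := by simpa [hx'] using norm_pos_iff.mpr hx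
  have hfin := norm_aeval_le_finite B P M (fun u hu => by
      rw [hBu]; exact hM _ (by simpa using hu))
    (v := ((‖x'‖⁻¹ : ℝ) : ℂ) • x') (by rw [norm_smul, Complex.norm_real, norm_inv, norm_norm,
      inv_mul_cancel₀ hxn.ne'])
  have hval : ((Polynomial.aeval B P x' : S) : H) = Polynomial.aeval A P x := by
    simp only [Polynomial.aeval_eq_sum_range, _root_.sum_apply,
      Submodule.coe_sum, _root_.smul_apply, Submodule.coe_smul]
    exact Finset.sum_congr rfl fun i hi => by rw [hB i (by simpa [Nat.lt_succ_iff] using hi)]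
  calc ‖Polynomial.aeval A P x‖ = ‖Polynomial.aeval B P x'‖ := by rw [← hval]; rfl
    _ ≤ ‖Polynomial.aeval B P‖ * ‖x'‖ := (Polynomial.aeval B P).le_opNorm x'
    _ ≤ 2 * M * ‖x‖ := mul_le_mul_of_nonneg_right hfin (norm_nonneg _)

/-- The two by two shift. -/
def shiftTwo : EuclideanSpace ℂ (Fin 2) →L[ℂ] EuclideanSpace ℂ (Fin 2) :=
  (innerSL ℂ (EuclideanSpace.single (1 : Fin 2) (1:ℂ))).smulRight
    (EuclideanSpace.single (0 : Fin 2) (1:ℂ))

lemma shiftTwo_extremal :
    1 ≤ ‖shiftTwo‖ ∧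
      ∀ u : EuclideanSpace ℂ (Fin 2), ‖u‖ = 1 → ‖⟪u, shiftTwo u⟫_ℂ‖ ≤ 1/2 := by
  constructor
  · have := shiftTwo.le_opNorm (EuclideanSpace.single (1 : Fin 2) (1:ℂ))
    simpa [shiftTwo, norm_smul] using this
  · intro u hu
    have h : ‖u 0‖ ^ 2 + ‖u 1‖ ^ 2 = 1 := by
      have := EuclideanSpace.norm_sq_eq u
      rw [Fin.sum_univ_two, hu] at this
      linarith
    simp [shiftTwo, inner_smul_right, EuclideanSpace.inner_single_left,
      EuclideanSpace.inner_single_right]
    nlinarith [sq_nonneg (‖u 0‖ - ‖u 1‖)]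

end Vale.Agent.P123
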